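import Vale.Agent.P030.AR.Vec
import Vale.Agent.P030.H462.EvSer

/-!
# P030, archimedean side: the log-free frames at the four cusps

`G c t` = eight vectors, analytic on the unit disc of the local parameter `t`; `Pm c T t`, `Qm c T t`
the transition matrices to the eight global vectors, `T` = the logarithm of `gl0 .. gl3`.
-/

open PowerSeries

namespace Vale.Agent.P030.AR

open Vale.Agent.P030.T Vale.Agent.P030.H462

set_option linter.unusedSimpArgs false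
set_option linter.unreachableTactic false
set_option linter.unusedTactic false

noncomputable section

/-- `k3 / t` at `c3` -/
def k3p : Fin 8 → ℚ⟦X⟧ := ![0, 0, 0, 0, 0, 0, -serK, -(tw serK)]

/-- the last coordinate vector -/
def sv7 : Fin 8 → ℂ := Pi.single 7 1

/-- the log-free frames at the four cusps -/
def Gf : Fin 4 → ℂ → Fin 8 → Fin 8 → ℂ
  | 0, t => ![tupC .z1 t, tupC .zl t, evt zL0 t, dv, gv, hv, tupC .z8 t, evt zM0 t]
  | 1, t => ![tupC .w1 t, tupC .wl t, evt wL0 t, dv, gv, hv, tupC .w8 t,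
      t • evt wM0 t + ((1 - t ^ 2) / 2 * evq serK t) • sv7]
  | 2, t => ![evt vO0 t, evt vE0 t, tupC .vb t, tupC .v2 t, tupC .vl t, hv, tupC .v8 t,
      evt vM0 t]
  | 3, t => ![tupC .x2 t, tupC .xl t, tupC .x1 t, evt xO0 t, evt xE0 t, dv, evt k3p t,
      evt xM0 t]

/-- the global vectors from the local ones -/
def gl : Fin 4 → ℂ → ℂ → Fin 8 → Fin 8 → ℂ
  | 0 => gl0
  | 1 => gl1
  | 2 => gl2
  | 3 => gl3

/-- `V = Pm * G` -/
def Pm : Fin 4 → ℂ → ℂ → Matrix (Fin 8) (Fin 8) ℂ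
  | 0, T, _ => !![1, l2, 0, 0, 0, 0, 0, 0;
      0, 1, 0, 0, 0, 0, 0, 0;
      0, 0, 1, T, 0, 0, 0, 0;
      0, 0, 0, 1, 0, 0, 0, 0;
      0, 0, 0, 0, 1, 0, 0, 0;
      0, 0, 0, 0, 0, 1, 0, 0;
      0, 0, 0, 0, 0, 0, pc / 2, 0;
      0, 0, 0, 0, 0, 0, 2 * l2 - T, -1]
  | 1, T, t => !![1, l2, 0, -(pc ^ 2 / 12), -(pc ^ 2 / 12), 0, -(pc ^ 2 / 16), 0;
      0, 1, 1, 0, T + l2 / 2, -(l2 / 2), 0, 0;
      0, 0, 1, Complex.I * pc, T + l2, -l2, 0, 0;
      0, 0, 0, 1, 0, 0, 0, 0;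
      0, 0, 0, 0, 1, 0, 0, 0;
      0, 0, 0, 0, 0, 1, 0, 0;
      0, 0, 0, 0, 0, 0, 2 * l2 - T, -t⁻¹;
      0, 0, 0, 0, 0, 0, pc - 2 * Complex.I * (2 * l2 - T), 2 * Complex.I * t⁻¹]
  | 2, T, _ => !![1, l2, T, T ^ 2 / 2 + pc ^ 2 / 6, l2 * T / 2 + pc ^ 2 / 12,
        -(pc ^ 2 / 4), -(pc / 8 * (T - 2 * l2)) - xc, -(pc / 8);
      0, 1, 0, 0, T / 2 - Complex.I * pc, Complex.I * pc, 0, 0;
      0, 0, 1, T - Complex.I * pc, 0, Complex.I * pc, 0, 0;
      0, 0, 0, -1, 1, 0, 0, 0;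
      0, 0, 0, 0, -1, 1, 0, 0;
      0, 0, 0, 0, 0, 1, 0, 0;
      0, 0, 0, 0, 0, 0, -(pc / 2) - Complex.I * (T - 2 * l2), -Complex.I;
      0, 0, 0, 0, 0, 0, Complex.I * pc - (T - 2 * l2), -1]
  | 3, T, t => !![T ^ 2 + pc ^ 2 / 6, l2 * T / 2 - pc ^ 2 / 12, T + l2,
        1, l2, pc ^ 2 / 6,
        (pc ^ 2 / 12 - l2 ^ 2 / 2) * t,
        3 * l2 / 4;
      -2 * T, T / 2 - l2 / 2, 0, 0, 1, 0, (-(3 * T / 4) + l2 / 2) * t, 0;
      -2 * T, -l2, -1, 0, 0, 0, (l2 - T / 4) * t, -(1 / 4);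
      0, 0, 0, 0, 0, 1, 0, 0;
      2, -1, 0, 0, 0, 0, 5 / 4 * t, 0;
      2, 0, 0, 0, 0, 0, 1 / 4 * t, 0;
      0, 0, 0, 0, 0, 0, (2 * l2 - T) * t, -1;
      0, 0, 0, 0, 0, 0, pc * t, 0]

/-- `G = Qm * V` -/
def Qm : Fin 4 → ℂ → ℂ → Matrix (Fin 8) (Fin 8) ℂ
  | 0, T, _ => !![1, -l2, 0, 0, 0, 0, 0, 0;
      0, 1, 0, 0, 0, 0, 0, 0;
      0, 0, 1, -T, 0, 0, 0, 0;
      0, 0, 0, 1, 0, 0, 0, 0;
      0, 0, 0, 0, 1, 0, 0, 0;
      0, 0, 0, 0, 0, 1, 0, 0;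
      0, 0, 0, 0, 0, 0, 2 / pc, 0;
      0, 0, 0, 0, 0, 0, (2 * l2 - T) * (2 / pc), -1]
  | 1, T, t => !![1, -l2, l2, pc ^ 2 / 12 - l2 * (Complex.I * pc), pc ^ 2 / 12 - l2 ^ 2 / 2,
        l2 ^ 2 / 2, pc ^ 2 / 16 * (2 * Complex.I / pc), pc / 16;
      0, 1, -1, Complex.I * pc, l2 / 2, -(l2 / 2), 0, 0;
      0, 0, 1, -(Complex.I * pc), -(T + l2), l2, 0, 0;
      0, 0, 0, 1, 0, 0, 0, 0;
      0, 0, 0, 0, 1, 0, 0, 0;
      0, 0, 0, 0, 0, 1, 0, 0;
      0, 0, 0, 0, 0, 0, 2 * Complex.I / pc, 1 / pc;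
      0, 0, 0, 0, 0, 0, t * ((2 * l2 - T) * (2 * Complex.I / pc) - 1), t * ((2 * l2 - T) / pc)]
  | 2, T, _ => !![1, -l2, -T, -(T ^ 2 / 2) + Complex.I * pc * T + pc ^ 2 / 6,
        -(T ^ 2 / 2) + Complex.I * pc * T + l2 * (Complex.I * pc) + pc ^ 2 / 4,
        T ^ 2 / 2,
        pc / 8 * (2 * Complex.I) + xc * (2 / pc), pc / 8 + xc * (-(2 * Complex.I / pc));
      0, 1, 0, 0, T / 2 - Complex.I * pc, -(T / 2), 0, 0;
      0, 0, 1, T - Complex.I * pc, T - Complex.I * pc, -T, 0, 0;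
      0, 0, 0, -1, -1, 1, 0, 0;
      0, 0, 0, 0, -1, 1, 0, 0;
      0, 0, 0, 0, 0, 1, 0, 0;
      0, 0, 0, 0, 0, 0, 2 / pc, -(2 * Complex.I / pc);
      0, 0, 0, 0, 0, 0, 2 * Complex.I - (T - 2 * l2) * (2 / pc),
        1 + (T - 2 * l2) * (2 * Complex.I / pc)]
  | 3, T, t => !![0, 0, 0, 0, 0, 1 / 2, 0, -(1 / (8 * pc));
      0, 0, 0, 0, -1, 1, 0, 1 / pc;
      0, 0, -1, 0, l2, -(T + l2), 1 / 4, (T / 4 - l2 / 2) / pc;
      1, -l2, T + l2, -(pc ^ 2 / 6), -(l2 * T) - l2 ^ 2 / 2 - pc ^ 2 / 12,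
        T ^ 2 / 2 + l2 * T + l2 ^ 2 / 2, -(T / 4) + l2 / 2,
        (-(T ^ 2 / 8) + l2 * T / 2 - l2 ^ 2 / 2 + pc ^ 2 / 48) / pc;
      0, 1, 0, 0, T / 2 - l2 / 2, T / 2 + l2 / 2, 0, 0;
      0, 0, 0, 1, 0, 0, 0, 0;
      0, 0, 0, 0, 0, 0, 0, 1 / (pc * t);
      0, 0, 0, 0, 0, 0, -1, (2 * l2 - T) / pc]

/-! ### the tuples of the constant groups -/

theorem evq_C (q : ℚ) (t : ℂ) : evq (C q) t = (q : ℂ) := by
  rw [evq, ev_C]; simp

theorem evq_zero (t : ℂ) : evq 0 t = 0 := by rw [evq, ev_zero]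
theorem evq_one (t : ℂ) : evq 1 t = 1 := by rw [evq, ev_one]

theorem evq_neg (f : ℚ⟦X⟧) (t : ℂ) : evq (-f) t = -evq f t := by rw [evq, ev_neg]; rfl

theorem evq_neg_one (t : ℂ) : evq (-1) t = -1 := by rw [evq_neg, evq_one]

/-- multiplication by a constant (no convergence needed) -/
theorem evq_sc (q : ℚ) (f : ℚ⟦X⟧) (t : ℂ) : evq (sc q f) t = (q : ℂ) * evq f t := by
  unfold evq ev sc
  rw [← tsum_mul_left]
  refine tsum_congr fun n => ?_
  rw [coeff_C_mul]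
  simp [mul_assoc]


theorem evq_eq (f : ℚ⟦X⟧) (t : ℂ) : evq f t = evQ f t := rfl

theorem evq_X_mul {f : ℚ⟦X⟧} (hf : PQ f) {t : ℂ} (ht : ‖t‖ < 1) :
    evq (X * f) t = t * evq f t := by
  rw [evq_eq, evq_eq, evQ, ev_mul PG.varX hf ht, ev_X]

/-! ### the constant groups -/

theorem tupC_zab (t : ℂ) : tupC .zab t = dv := by
  ext j
  fin_cases j <;> simp [tupC, tup0, tup1, dv, evq_zero, evq_one, Pi.single_apply]

theorem tupC_wab (t : ℂ) : tupC .wab t = dv := by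
  ext j
  fin_cases j <;> simp [tupC, tup0, tup1, dv, evq_zero, evq_one, Pi.single_apply]

theorem tupC_wf7 (t : ℂ) : tupC .wf7 t = hv := by
  ext j
  fin_cases j <;> simp [tupC, tup0, tup1, hv, evq_zero, evq_one, Pi.single_apply]

theorem tupC_v2 (t : ℂ) : tupC .v2 t = hv - dv - gv := by
  ext j
  fin_cases j <;>
    simp [tupC, tup0, tup1, hv, dv, gv, evq_zero, evq_one, evq_neg_one, Pi.single_apply]

theorem tupC_vl (t : ℂ) : tupC .vl t = hv - gv := by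
  ext j
  fin_cases j <;>
    simp [tupC, tup0, tup1, hv, dv, gv, evq_zero, evq_one, evq_neg_one, Pi.single_apply]

theorem tupC_wy (t : ℂ) : tupC .wy t = -((4 / 3 : ℂ) • (dv + gv)) - tupC .w8 t := by
  ext j
  fin_cases j <;>
    simp [tupC, tup0, tup1, hv, dv, gv, evq_zero, evq_one, evq_neg, evq_C, Pi.single_apply]

theorem tupC_xl {t : ℂ} (ht : ‖t‖ < 1) : tupC .xl t = hv - gv + t • evt k3p t := by
  ext j
  fin_cases j <;>
    simp [tupC, tup0, tup1, hv, dv, gv, evt, k3p, evq_zero, evq_one, evq_neg, evq_C,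
      Pi.single_apply, evq_X_mul pq_serK ht, evq_X_mul (pq_tw pq_serK) ht]

theorem tupC_x2 {t : ℂ} (ht : ‖t‖ < 1) :
    tupC .x2 t = (1 / 2 : ℂ) • hv - (1 / 8 : ℂ) • (t • evt k3p t) := by
  ext j
  fin_cases j <;>
    simp [tupC, tup0, tup1, hv, dv, gv, evt, k3p, evq_zero, evq_one, evq_neg, evq_C, evq_sc,
      Pi.single_apply, evq_X_mul pq_serK ht, evq_X_mul (pq_tw pq_serK) ht]

/-! ### transitions -/

/-- **the global vectors in the log-free frames** -/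
theorem gl_eq (c : Fin 4) (T : ℂ) {t : ℂ} (ht : ‖t‖ < 1) (ht0 : t ≠ 0) (i : Fin 8) :
    gl c T t i = ∑ m, Pm c T t i m • Gf c t m := by
  fin_cases c
  · fin_cases i <;>
      simp [gl, gl0, Pm, Gf, Fin.sum_univ_eight]
    all_goals module
  · fin_cases i <;>
      simp [gl, gl1, Pm, Gf, Fin.sum_univ_eight, wMv, wLv, tupC_wy, sv7]
    · module
    · module
    · module
    · match_scalars <;> field_simp
    · match_scalars <;> field_simp
  · fin_cases i <;>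
      simp [gl, gl2, Pm, Gf, Fin.sum_univ_eight, vEv, vMv, A1v, A2v, tupC_v2, tupC_vl]
    · module
    · module
    · module
    · match_scalars <;> first | ring1 | linear_combination pc * Complex.I_sq
    · module
  · fin_cases i <;>
      simp [gl, gl3, Pm, Gf, Fin.sum_univ_eight, k3v, xMv, x1v, xEv, tupC_x2 ht, tupC_xl ht]
    all_goals module

theorem pc_ne : pc ≠ 0 := by
  unfold pc
  exact_mod_cast Real.pi_ne_zero

theorem Qm_mul_Pm0 (T : ℂ) {t : ℂ} (ht0 : t ≠ 0) (i j : Fin 8) :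
    (Qm 0 T t * Pm 0 T t) i j = (1 : Matrix (Fin 8) (Fin 8) ℂ) i j := by
  have hp := pc_ne
  have hI : Complex.I ^ 2 = -1 := Complex.I_sq
  have hI3 : Complex.I ^ 3 = -Complex.I := by rw [pow_succ, hI]; ring
  revert j
  fin_cases i <;> intro j <;> fin_cases j <;>
    simp [Qm, Pm, Matrix.mul_apply, Fin.sum_univ_eight, Matrix.one_apply]
  all_goals first
    | ring1
    | (field_simp; done)
    | (field_simp; ring1)
    | (field_simp; ring_nf; simp only [hI, hI3]; ring1)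
    | exact hp

theorem Qm_mul_Pm1 (T : ℂ) {t : ℂ} (ht0 : t ≠ 0) (i j : Fin 8) :
    (Qm 1 T t * Pm 1 T t) i j = (1 : Matrix (Fin 8) (Fin 8) ℂ) i j := by
  have hp := pc_ne
  have hI : Complex.I ^ 2 = -1 := Complex.I_sq
  have hI3 : Complex.I ^ 3 = -Complex.I := by rw [pow_succ, hI]; ring
  revert j
  fin_cases i <;> intro j <;> fin_cases j <;>
    simp [Qm, Pm, Matrix.mul_apply, Fin.sum_univ_eight, Matrix.one_apply]
  all_goals first
    | ring1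
    | (field_simp; done)
    | (field_simp; ring1)
    | (field_simp; ring_nf; simp only [hI, hI3]; ring1)
    | exact hp

theorem Qm_mul_Pm2 (T : ℂ) {t : ℂ} (ht0 : t ≠ 0) (i j : Fin 8) :
    (Qm 2 T t * Pm 2 T t) i j = (1 : Matrix (Fin 8) (Fin 8) ℂ) i j := by
  have hp := pc_ne
  have hI : Complex.I ^ 2 = -1 := Complex.I_sq
  have hI3 : Complex.I ^ 3 = -Complex.I := by rw [pow_succ, hI]; ring
  revert j
  fin_cases i <;> intro j <;> fin_cases j <;>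
    simp [Qm, Pm, Matrix.mul_apply, Fin.sum_univ_eight, Matrix.one_apply]
  all_goals first
    | ring1
    | (field_simp; done)
    | (field_simp; ring1)
    | (field_simp; ring_nf; simp only [hI, hI3]; ring1)
    | exact hp

theorem Qm_mul_Pm3 (T : ℂ) {t : ℂ} (ht0 : t ≠ 0) (i j : Fin 8) :
    (Qm 3 T t * Pm 3 T t) i j = (1 : Matrix (Fin 8) (Fin 8) ℂ) i j := by
  have hp := pc_ne
  have hI : Complex.I ^ 2 = -1 := Complex.I_sq
  have hI3 : Complex.I ^ 3 = -Complex.I := by rw [pow_succ, hI]; ring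
  revert j
  fin_cases i <;> intro j <;> fin_cases j <;>
    simp [Qm, Pm, Matrix.mul_apply, Fin.sum_univ_eight, Matrix.one_apply]
  all_goals first
    | ring1
    | (field_simp; done)
    | (field_simp; ring1)
    | (field_simp; ring_nf; simp only [hI, hI3]; ring1)
    | exact hp

/-- the two transition matrices are inverse to each other -/
theorem Qm_mul_Pm (c : Fin 4) (T : ℂ) {t : ℂ} (ht0 : t ≠ 0) : Qm c T t * Pm c T t = 1 := by
  ext i j
  fin_cases c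
  · exact Qm_mul_Pm0 T ht0 i j
  · exact Qm_mul_Pm1 T ht0 i j
  · exact Qm_mul_Pm2 T ht0 i j
  · exact Qm_mul_Pm3 T ht0 i j

/-- **the log-free frames in terms of the global vectors** -/
theorem Gf_eq (c : Fin 4) (T : ℂ) {t : ℂ} (ht : ‖t‖ < 1) (ht0 : t ≠ 0) (m : Fin 8) :
    Gf c t m = ∑ i, Qm c T t m i • gl c T t i := by
  simp_rw [gl_eq c T ht ht0, Finset.smul_sum, smul_smul]
  rw [Finset.sum_comm]
  simp_rw [← Finset.sum_smul]
  have h : ∀ k, ∑ i, Qm c T t m i * Pm c T t i k = (1 : Matrix (Fin 8) (Fin 8) ℂ) m k := fun k => by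
    rw [← Qm_mul_Pm c T ht0, Matrix.mul_apply]
  simp_rw [h, Matrix.one_apply]
  simp

/-! ### the same for the global vectors -/

/-- the local parameter as a function of `u` -/
def tu : Fin 4 → ℂ → ℂ
  | 0, u => u
  | 1, u => (u + 1) / (u - 1)
  | 2, u => 1 / u
  | 3, u => (u - 1) / (u + 1)

/-- the logarithm as a function of `u` -/
def Tu : Fin 4 → ℂ → ℂ
  | 0, u => Complex.log u
  | 1, u => Complex.log (-((u + 1) / (u - 1)))
  | 2, u => Complex.log (-(1 / u))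
  | 3, u => Complex.log (-((u - 1) / (u + 1)))

theorem tu_ne {u : ℂ} (hu : u ∈ Up) (c : Fin 4) : tu c u ≠ 0 := by
  have h0 : ∀ a : ℝ, u + a ≠ 0 := by
    intro a h
    have h1 : (u + a).im = 0 := by rw [h]; rfl
    simp only [Complex.add_im, Complex.ofReal_im, add_zero] at h1
    exact (ne_of_gt hu) h1
  have h1 : u ≠ 0 := by simpa using h0 0
  have h2 : u + 1 ≠ 0 := by simpa using h0 1
  have h3 : u - 1 ≠ 0 := by simpa [sub_eq_add_neg] using h0 (-1)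
  fin_cases c
  · exact h1
  · exact div_ne_zero h2 h3
  · exact div_ne_zero one_ne_zero h1
  · exact div_ne_zero h3 h2

theorem IsV.at_cusp {V : Fin 8 → ℂ → Fin 8 → ℂ} (h : IsV V) (c : Fin 4) {u : ℂ} (hu : u ∈ Up)
    (ht : ‖tu c u‖ < 1) (i : Fin 8) : V i u = gl c (Tu c u) (tu c u) i := by
  fin_cases c
  · exact h.at0 u hu ht i
  · exact h.at1 u hu ht i
  · refine h.at2 u hu ?_ i
    have h1 : ‖1 / u‖ < 1 := ht
    have h2 : u ≠ 0 := by
      rintro rfl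
      exact lt_irrefl _ (show (0 : ℝ) < (0 : ℂ).im from hu)
    rw [norm_div, norm_one, div_lt_one (norm_pos_iff.2 h2)] at h1
    exact h1
  · exact h.at3 u hu ht i

/-- **global from log-free** on the upper half of a cusp disc -/
theorem IsV.eq_sum {V : Fin 8 → ℂ → Fin 8 → ℂ} (h : IsV V) (c : Fin 4) {u : ℂ} (hu : u ∈ Up)
    (ht : ‖tu c u‖ < 1) (i : Fin 8) :
    V i u = ∑ m, Pm c (Tu c u) (tu c u) i m • Gf c (tu c u) m := by
  rw [h.at_cusp c hu ht, gl_eq c _ ht (tu_ne hu c)]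

/-- **log-free from global** on the upper half of a cusp disc -/
theorem IsV.Gf_eq {V : Fin 8 → ℂ → Fin 8 → ℂ} (h : IsV V) (c : Fin 4) {u : ℂ} (hu : u ∈ Up)
    (ht : ‖tu c u‖ < 1) (m : Fin 8) :
    Gf c (tu c u) m = ∑ i, Qm c (Tu c u) (tu c u) m i • V i u := by
  rw [AR.Gf_eq c (Tu c u) ht (tu_ne hu c)]
  exact Finset.sum_congr rfl fun i _ => by rw [h.at_cusp c hu ht]

end

end Vale.Agent.P030.AR
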